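import Vale.Agent.P174.Closure

/-!
Systems over commutative groups, and the two coefficient fields.
-/

open scoped Classical

namespace Vale.Agent.P174

universe u

/-- Finite families in `k` can be cleared to integers. -/
def Clears (k : Type) [Field k] : Prop :=
  ∀ {ι : Type} (_ : Fintype ι) (b : ι → k),
    ∃ z : k, z ≠ 0 ∧ ∀ i, ∃ c : ℤ, (c : k) = z * b i

lemma clears_rat : Clears ℚ := by
  intro ι _ b
  refine ⟨((∏ i, (b i).den : ℕ) : ℚ), ?_, fun i => ?_⟩
  · exact_mod_cast Finset.prod_ne_zero_iff.mpr fun i _ => (b i).den_nz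
  · obtain ⟨d, hd⟩ := Finset.dvd_prod_of_mem (fun i => (b i).den) (Finset.mem_univ i)
    refine ⟨(b i).num * d, ?_⟩
    rw [hd]
    push_cast
    rw [← Rat.num_div_den (b i)]
    field_simp
    simp [Rat.num_div_den, mul_comm, mul_assoc, mul_left_comm]

lemma clears_zmod (p : ℕ) [Fact p.Prime] : Clears (ZMod p) := by
  intro ι _ b
  exact ⟨1, one_ne_zero, fun i => ⟨(b i).cast, by simp⟩⟩

lemma exists_int_matrix {k : Type} [Field k] (hc : Clears k) {m n : ℕ}
    (A : Matrix (Fin m) (Fin n) ℤ)
    (hA : LinearIndependent k fun i j => ((A i j : ℤ) : k)) :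
    ∃ (D : ℤ) (B : Matrix (Fin n) (Fin m) ℤ), D ≠ 0 ∧ A * B = D • 1 := by
  choose f hf using fun j : Fin m =>
    exists_linearMap hA (fun i => if i = j then (1 : k) else 0)
  obtain ⟨z, hz, hc'⟩ := hc inferInstance (fun q : Fin n × Fin m => f q.2 (Pi.single q.1 1))
  choose c hc'' using hc'
  let B : Matrix (Fin n) (Fin m) ℤ := Matrix.of fun x j => c (x, j)
  have hAB : (Int.castRingHom k).mapMatrix (A * B) = z • (1 : Matrix (Fin m) (Fin m) k) := by
    ext i j
    have e : (fun l => ((A i l : ℤ) : k)) = ∑ l, ((A i l : ℤ) : k) • Pi.single l (1 : k) := by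
      funext l
      simp [Finset.sum_apply, Pi.single_apply]
    have := hf j i
    rw [e, map_sum] at this
    simp only [map_smul, smul_eq_mul] at this
    simp only [RingHom.mapMatrix_apply, Matrix.map_apply, Matrix.mul_apply,
      Int.coe_castRingHom, B, Matrix.of_apply, Matrix.smul_apply, Matrix.one_apply,
      smul_eq_mul]
    push_cast
    simp only [hc'']
    rw [← this, Finset.mul_sum]
    exact Finset.sum_congr rfl fun l _ => by ring
  refine ⟨(A * B).det, B * (A * B).adjugate, ?_, ?_⟩
  · intro h
    have h2 := (Int.castRingHom k).map_det (A * B)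
    rw [h, hAB, map_zero, Matrix.det_smul, Matrix.det_one, mul_one] at h2
    exact pow_ne_zero _ hz h2.symm
  · rw [← Matrix.mul_assoc, Matrix.mul_adjugate]

/-- Independent systems over commutative groups are solvable. -/
theorem systemsSolvable_of_comm {k : Type} [Field k] (hc : Clears k) (N : Type u) [Group N]
    (hN : ∀ a b : N, a * b = b * a) : SystemsSolvable k N := by
  let _ : CommGroup N := { ‹Group N› with mul_comm := hN }
  intro m n w hw
  let A : Matrix (Fin m) (Fin n) ℤ := fun i j => (expVec (w i)).toAdd j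
  obtain ⟨D, B, hD, hAB⟩ := exists_int_matrix hc A hw
  let χs := CharacterModule (Additive N)
  let f : N →* Multiplicative (χs → AddCircle (1 : ℚ)) :=
    MonoidHom.mk' (fun a => Multiplicative.ofAdd fun χ => χ (Additive.ofMul a)) fun a b => by
      apply Multiplicative.toAdd.injective
      funext χ
      simp
  have hf : Function.Injective f := by
    rw [injective_iff_map_eq_one]
    intro a ha
    have : Additive.ofMul a = 0 := CharacterModule.eq_zero_of_character_apply fun χ =>
      congrFun (congrArg Multiplicative.toAdd ha) χ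
    exact this
  let coefN : Monoid.Coprod N (FreeGroup (Fin n)) →* N := Monoid.Coprod.lift (MonoidHom.id N) 1
  let c : Fin m → χs → AddCircle (1 : ℚ) := fun i => (f (coefN (w i))).toAdd
  have hdiv : ∀ x : AddCircle (1 : ℚ), ∃ y, D • y = x := by
    intro x
    induction x using QuotientAddGroup.induction_on with
    | _ q =>
      refine ⟨((q / D : ℚ) : AddCircle (1 : ℚ)), ?_⟩
      rw [← AddCircle.coe_zsmul, zsmul_eq_mul, mul_div_cancel₀ _ (by exact_mod_cast hD)]
  choose c' hc' using fun i χ => hdiv (-(c i χ))
  let h : Fin n → Multiplicative (χs → AddCircle (1 : ℚ)) :=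
    fun j => Multiplicative.ofAdd fun χ => ∑ i, B j i • c' i χ
  refine ⟨_, inferInstance, f, h, hf, fun i => ?_⟩
  have key : Monoid.Coprod.lift f (FreeGroup.lift h) =
      f.comp coefN * MonoidHom.mk' (fun v => ∏ j, h j ^ ((expVec v).toAdd j))
        (fun a b => by simp [zpow_add, Finset.prod_mul_distrib]) := by
    apply Monoid.Coprod.hom_ext
    · ext a
      simp [coefN, expVec]
    · apply FreeGroup.ext_hom
      intro x
      simp [coefN, expVec, Pi.single_apply]
  rw [key]
  apply Multiplicative.toAdd.injective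
  funext χ
  simp only [MonoidHom.mul_apply, MonoidHom.comp_apply, MonoidHom.mk'_apply, toAdd_mul,
    toAdd_prod, toAdd_zpow, Pi.add_apply, Finset.sum_apply, Pi.smul_apply, h, toAdd_ofAdd,
    toAdd_one, Pi.zero_apply, Finset.smul_sum, smul_smul]
  rw [Finset.sum_comm]
  simp only [← Finset.sum_smul]
  have : ∀ l, ∑ x, (expVec (w i)).toAdd x * B x l = if i = l then D else 0 := by
    intro l
    have e := congrFun (congrFun hAB i) l
    rw [Matrix.mul_apply, Matrix.smul_apply, Matrix.one_apply, smul_eq_mul] at e
    simpa [A] using e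
  simp only [this, ite_smul, zero_smul, Finset.sum_ite_eq, Finset.mem_univ, if_true, hc']
  exact add_neg_cancel (c i χ)

end Vale.Agent.P174
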