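import Mathlib

/-!
Linear algebra over an algebra with a retraction onto the base field.
-/

namespace Vale.Agent.P174

open Finsupp

lemma exists_linearMap {k V W ι : Type*} [Field k] [AddCommGroup V] [Module k V]
    [AddCommGroup W] [Module k W] {v : ι → V} (hv : LinearIndependent k v) (a : ι → W) :
    ∃ f : V →ₗ[k] W, ∀ i, f (v i) = a i := by
  obtain ⟨f, hf⟩ := LinearMap.exists_extend ((Finsupp.linearCombination k a).comp hv.repr)
  refine ⟨f, fun i => ?_⟩
  have h := LinearMap.congr_fun hf ⟨v i, Submodule.subset_span ⟨i, rfl⟩⟩
  simp only [LinearMap.comp_apply, Submodule.subtype_apply] at h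
  rw [h, hv.repr_eq_single i _ rfl, linearCombination_single, one_smul]

/-- A family of vectors over `R` whose image over the field `k` is independent is independent. -/
lemma linearIndependent_of_retraction {k R X ι : Type*} [Field k] [CommRing R] [Algebra k R]
    (ε : R →ₐ[k] k) (hreg : ∀ x y : R, ε x ≠ 0 → y * x = 0 → y = 0)
    (P : ι → X →₀ R)
    (hP : LinearIndependent k fun i => (P i).mapRange ε (map_zero ε)) :
    LinearIndependent R P := by
  classical
  choose f hf using fun j : ι =>
    exists_linearMap hP (fun i => if i = j then (1 : k) else 0)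
  let F : ι → (X →₀ R) →ₗ[R] R := fun j =>
    Finsupp.linearCombination R (fun x => algebraMap k R (f j (single x 1)))
  have hF : ∀ j (w : X →₀ R), ε (F j w) = f j (w.mapRange ε (map_zero ε)) := by
    intro j w
    induction w using Finsupp.induction_linear with
    | zero => simp
    | add a b ha hb => simp [map_add, ha, hb, Finsupp.mapRange_add]
    | single x r =>
      have : single x (ε r) = ε r • single x (1 : k) := by simp
      simp only [F, linearCombination_single, mapRange_single, smul_eq_mul, map_mul,
        AlgHom.commutes]
      rw [this, map_smul]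
      simp
  rw [linearIndependent_iff']
  intro s c hc i hi
  let M : Matrix s s R := Matrix.of fun a b => F b.1 (P a.1)
  have hMε : ε.toRingHom.mapMatrix M = 1 := by
    ext a b
    change ε (F b.1 (P a.1)) = _
    rw [hF, hf]
    rcases eq_or_ne a b with h | h
    · subst h; simp
    · rw [if_neg (fun e => h (Subtype.ext e)), Matrix.one_apply_ne h]
  have hdet : ε M.det = 1 := by
    have := ε.toRingHom.map_det M
    rw [hMε, Matrix.det_one] at this
    simpa using this
  have hv : Matrix.vecMul (fun a : s => c a.1) M = 0 := by
    ext b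
    have := congrArg (F b.1) hc
    simp only [map_sum, map_smul, map_zero, smul_eq_mul] at this
    rw [← Finset.sum_coe_sort] at this
    simpa [Matrix.vecMul, dotProduct, M] using this
  have := congrArg (fun u => Matrix.vecMul u M.adjugate) hv
  simp only [Matrix.vecMul_vecMul, Matrix.mul_adjugate, Matrix.zero_vecMul,
    Matrix.vecMul_smul, Matrix.vecMul_one] at this
  have h2 := congrFun this ⟨i, hi⟩
  simp only [Pi.smul_apply, smul_eq_mul, Pi.zero_apply] at h2
  exact hreg _ _ (by rw [hdet]; exact one_ne_zero) (by rw [mul_comm]; exact h2)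

/-- The augmentation of a group algebra. -/
noncomputable def aug (k : Type*) [Field k] : AddMonoidAlgebra k k →ₐ[k] k :=
  AddMonoidAlgebra.lift k k k 1

lemma aug_single {k : Type*} [Field k] (g a : k) : aug k (AddMonoidAlgebra.single g a) = a := by
  simp [aug, AddMonoidAlgebra.lift_single]

/-- Elements of nonzero augmentation are not zero divisors. -/
def Regular (k : Type*) [Field k] : Prop :=
  ∀ x y : AddMonoidAlgebra k k, aug k x ≠ 0 → y * x = 0 → y = 0

lemma regular_rat : Regular ℚ := by
  intro x y hx h
  rcases mul_eq_zero.mp h with h | h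
  · exact h
  · simp [h] at hx

lemma regular_zmod (p : ℕ) [Fact p.Prime] : Regular (ZMod p) := by
  intro x y hx h
  haveI : CharP (AddMonoidAlgebra (ZMod p) (ZMod p)) p :=
    charP_of_injective_algebraMap (algebraMap (ZMod p) _).injective p
  have key : ∀ z : AddMonoidAlgebra (ZMod p) (ZMod p),
      z ^ p = AddMonoidAlgebra.single 0 (aug (ZMod p) z) := by
    intro z
    induction z using AddMonoidAlgebra.induction_linear with
    | zero => simp [zero_pow (Fact.out : p.Prime).ne_zero]
    | add a b ha hb => rw [add_pow_char a b, ha, hb, map_add, AddMonoidAlgebra.single_add]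
    | single g a =>
      simp [AddMonoidAlgebra.single_pow, aug_single, ZMod.pow_card]
  have h1 : y * x ^ p = 0 := by
    obtain ⟨q, hq⟩ : ∃ q, p = q + 1 := ⟨p - 1, by have := (Fact.out : p.Prime).pos; omega⟩
    have e : x ^ p = x * x ^ q := by
      conv_lhs => arg 2; rw [hq]
      exact pow_succ' x q
    rw [e, ← mul_assoc, h, zero_mul]
  rw [key] at h1
  have h2 := congrArg (fun z => z * AddMonoidAlgebra.single (0 : ZMod p) (aug (ZMod p) x)⁻¹) h1
  simp only [zero_mul, mul_assoc, AddMonoidAlgebra.single_mul_single, add_zero] at h2
  rw [mul_inv_cancel₀ hx, ← AddMonoidAlgebra.one_def, mul_one] at h2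
  exact h2

end Vale.Agent.P174
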