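import Vale.Agent.P174.Descent

/-!
Solvability passes from the kernel to the group when the quotient is indicable.
-/

open scoped Classical

namespace Vale.Agent.P174

universe u v

variable {k : Type} [Field k] {G : Type u} [Group G]

/-- Finishing: a witness whose used labels lie in a good normal subgroup is impossible. -/
lemma Wit.absurd_of_labels {N : Subgroup G} (hN : SystemsSolvable k N) (W : Wit k G)
    (hlab : ∀ c ∈ W.Cu, W.lab c ∈ N) : False := by
  let Is : Finset W.I :=
    (W.pieces.filterMap fun p => p.2.getLeft?.map Prod.fst).toFinset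
  let Xs : Finset W.X := (W.occ.filterMap fun a => a.1.getRight?).toFinset
  let eI := Fintype.equivFin {i // i ∈ Is}
  let eX := Fintype.equivFin {x // x ∈ Xs}
  let n := Fintype.card {x // x ∈ Xs}
  let nC : W.C → N := fun c => if h : c ∈ W.Cu then ⟨W.lab c, hlab c h⟩ else 1
  let sX : W.X → FreeGroup (Fin n) := fun x =>
    if h : x ∈ Xs then FreeGroup.of (eX ⟨x, h⟩) else 1
  let θ : FreeGroup (W.C ⊕ W.X) →* Monoid.Coprod N (FreeGroup (Fin n)) :=
    FreeGroup.lift (Sum.elim (fun c => Monoid.Coprod.inl (nC c))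
      (fun x => Monoid.Coprod.inr (sX x)))
  let w : Fin (Fintype.card {i // i ∈ Is}) → Monoid.Coprod N (FreeGroup (Fin n)) :=
    fun i => θ (FreeGroup.mk (W.r (eI.symm i).1))
  have hsupp : ∀ i ∈ Is, ∀ x, (∃ b, (Sum.inr x, b) ∈ W.r i) → x ∈ Xs := by
    intro i hi x ⟨b, hb⟩
    simp only [Is, List.mem_toFinset, List.mem_filterMap, Option.map_eq_some_iff,
      Sum.getLeft?_eq_some_iff] at hi
    obtain ⟨⟨u, q⟩, hp, ⟨i', b'⟩, hq, rfl⟩ := hi
    simp only at hq
    subst hq
    have hm : ∃ b'', (Sum.inr x, b'') ∈ body W.r (Sum.inl (i', b')) := by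
      cases b'
      · refine ⟨!b, ?_⟩
        simp only [body, FreeGroup.invRev, List.mem_reverse, List.mem_map]
        exact ⟨_, hb, rfl⟩
      · exact ⟨b, hb⟩
    obtain ⟨b'', hb''⟩ := hm
    simp only [Xs, List.mem_toFinset, List.mem_filterMap]
    exact ⟨_, W.mem_occ_body hp hb'', rfl⟩
  let L : (W.X →₀ k) →ₗ[k] (Fin n → k) :=
    LinearMap.pi fun j => Finsupp.lapply (eX.symm j).1
  have hexp : ∀ (l : List ((W.C ⊕ W.X) × Bool)) (j : Fin n),
      (((expVec (θ (FreeGroup.mk l))).toAdd j : ℤ) : k) = expo k l (eX.symm j).1 := by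
    intro l j
    induction l with
    | nil =>
      have h0 : FreeGroup.mk ([] : List ((W.C ⊕ W.X) × Bool)) = 1 := rfl
      simp [h0, expo, deg]
    | cons a l ih =>
      obtain ⟨s, b⟩ := a
      have e : FreeGroup.mk ((s, b) :: l) =
          cond b (FreeGroup.of s) (FreeGroup.of s)⁻¹ * FreeGroup.mk l := by
        cases b <;> rfl
      rw [e, map_mul, map_mul, toAdd_mul, Pi.add_apply, Int.cast_add, ih]
      simp only [expo, deg, Finsupp.add_apply]
      congr 1
      rcases s with c | x
      · cases b <;> simp [θ, expVec]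
      · by_cases hx : x ∈ Xs
        · have hj : j = eX ⟨x, hx⟩ ↔ x = (eX.symm j).1 := by
            rw [← Equiv.symm_apply_eq, Subtype.ext_iff, eq_comm]
          cases b <;>
            simp [θ, expVec, sX, hx, Pi.single_apply, Finsupp.single_apply, hj,
              apply_ite (fun z : ℤ => (z : k))]
        · have hne : x ≠ (eX.symm j).1 := fun h => hx (h ▸ (eX.symm j).2)
          cases b <;> simp [θ, expVec, sX, hx, hne]
  have hind : LinearIndependent k fun i j => (((expVec (w i)).toAdd j : ℤ) : k) := by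
    have hin : LinearIndependent k fun i => expo k (W.r (eI.symm i).1) :=
      W.indep.comp (fun i => (eI.symm i).1) (Subtype.val_injective.comp eI.symm.injective)
    have hsup : Submodule.span k (Set.range fun i => expo k (W.r (eI.symm i).1)) ≤
        Finsupp.supported k k ↑Xs := by
      rw [Submodule.span_le]
      rintro _ ⟨i, rfl⟩
      rw [SetLike.mem_coe, Finsupp.mem_supported']
      intro x hx
      by_contra hne
      have : ∀ l : List ((W.C ⊕ W.X) × Bool), expo k l x ≠ 0 →
          ∃ b, (Sum.inr x, b) ∈ l := by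
        intro l
        induction l with
        | nil => simp [expo, deg]
        | cons a l ih =>
          obtain ⟨s, b⟩ := a
          intro h
          by_cases he : s = Sum.inr x
          · exact ⟨b, by rw [he]; exact List.mem_cons_self⟩
          · have h2 : expo k l x ≠ 0 := by
              rcases s with c | x'
              · cases b <;> simpa [expo, deg] using h
              · have hne : x' ≠ x := fun h => he (h ▸ rfl)
                cases b <;> simpa [expo, deg, hne, Ne.symm hne] using h
            obtain ⟨b', hb'⟩ := ih h2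
            exact ⟨b', List.mem_cons_of_mem _ hb'⟩
      exact hx (hsupp _ (eI.symm i).2 x (this _ hne))
    have hdisj : Disjoint (Submodule.span k (Set.range fun i => expo k (W.r (eI.symm i).1)))
        (LinearMap.ker L) := by
      rw [Submodule.disjoint_def]
      intro z hz hker
      ext x
      by_cases hx : x ∈ Xs
      · have := congrFun (LinearMap.mem_ker.mp hker) (eX ⟨x, hx⟩)
        simpa [L] using this
      · exact (Finsupp.mem_supported' k z).mp (hsup hz) x hx
    have hfun : (fun i j => (((expVec (w i)).toAdd j : ℤ) : k)) =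
        L ∘ fun i => expo k (W.r (eI.symm i).1) := by
      funext i j
      exact hexp _ j
    rw [hfun]
    exact hin.map hdisj
  obtain ⟨H, hH, f, h, hf, hsol⟩ := hN _ _ w hind
  let Φ : FreeGroup (W.C ⊕ W.X) →* H := (Monoid.Coprod.lift f (FreeGroup.lift h)).comp θ
  have hr : ∀ i ∈ Is, Φ (FreeGroup.mk (W.r i)) = 1 := by
    intro i hi
    have := hsol (eI ⟨i, hi⟩)
    simpa [w, Φ] using this
  have hcoef : ∀ c : List (W.C × Bool), (∀ a ∈ c, a.1 ∈ W.Cu) →
      ∃ z : N, (z : G) = val W.lab c ∧ Φ (FreeGroup.mk (emb c)) = f z := by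
    intro c hc
    induction c with
    | nil => exact ⟨1, by simp [val_nil], by simp [emb, ← FreeGroup.one_eq_mk]⟩
    | cons a l ih =>
      obtain ⟨c, b⟩ := a
      simp only [List.mem_cons, forall_eq_or_imp] at hc
      obtain ⟨z, hz, hz'⟩ := ih hc.2
      refine ⟨cond b (nC c) (nC c)⁻¹ * z, ?_, ?_⟩
      · rw [val_cons, ← hz]
        cases b <;> simp [nC, hc.1]
      · have e : FreeGroup.mk (emb ((c, b) :: l)) =
            cond b (FreeGroup.of (Sum.inl c : W.C ⊕ W.X)) (FreeGroup.of (Sum.inl c))⁻¹ *
              FreeGroup.mk (emb l) := by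
          cases b <;> rfl
        rw [e, map_mul, hz', map_mul]
        congr 1
        cases b <;> simp [Φ, θ]
  have hbody : ∀ p ∈ W.pieces, Φ (FreeGroup.mk (body W.r p.2)) = 1 := by
    rintro ⟨u, q⟩ hp
    rcases q with ⟨i, b⟩ | c
    · have hi : i ∈ Is := by
        simp only [Is, List.mem_toFinset, List.mem_filterMap]
        exact ⟨_, hp, rfl⟩
      cases b
      · simp only [body, ← FreeGroup.inv_mk, map_inv, hr i hi, inv_one]
      · simpa [body] using hr i hi
    · obtain ⟨z, -, hv⟩ := W.hrel u c hp
      obtain ⟨y, hy, hy'⟩ := hcoef c fun a ha => W.mem_occ_rel hp ha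
      have : y = 1 := Subtype.ext (by rw [hy, hv]; rfl)
      simpa [body, this] using hy'
  have hrhs : ∀ ps : List _, (∀ p ∈ ps, Φ (FreeGroup.mk (body W.r p.2)) = 1) →
      Φ (FreeGroup.mk (rhs W.r ps)) = 1 := by
    intro ps hps
    induction ps with
    | nil => simp [rhs, ← FreeGroup.one_eq_mk, ← FreeGroup.mul_mk, ← FreeGroup.inv_mk]
    | cons p ps ih =>
      have e : rhs W.r (p :: ps) =
          (p.1 ++ body W.r p.2 ++ FreeGroup.invRev p.1) ++ rhs W.r ps := by
        simp [rhs]
      rw [e]
      simp only [← FreeGroup.mul_mk, map_mul, hps p List.mem_cons_self, mul_one,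
        ← FreeGroup.inv_mk, map_inv, mul_inv_cancel, one_mul]
      exact ih fun q hq => hps q (List.mem_cons_of_mem _ hq)
  obtain ⟨y, hy, hy'⟩ := hcoef W.T fun a ha => W.mem_occ_T ha
  rw [W.hid, hrhs _ hbody] at hy'
  have hy1 : y = 1 := hf (by rw [← hy', map_one])
  exact W.hTv (by rw [← hy, hy1]; rfl)

/-- No witness exists. -/
lemma Wit.none {Q : Type v} [Group Q] (π : G →* Q) (hk : Regular k) (hQ : Indicable k Q)
    (hN : SystemsSolvable k π.ker) (W : Wit k G) : False := by
  induction hd : 3 * W.occ.length - W.meas using Nat.strong_induction_on generalizing W with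
  | _ d ih =>
    rcases W.dichotomy π hk hQ with h | ⟨W', hlen, hlt⟩
    · exact (W.gauge W.tree).absurd_of_labels hN fun c hc => h c hc
    · have := W'.meas_le
      exact ih _ (by omega) W' rfl

/-- Products of conjugates of pieces. -/
def pieceSub {C X I : Type*} (r : I → List ((C ⊕ X) × Bool)) (ok : List (C × Bool) → Prop)
    (hok : ∀ c, ok c → ok (FreeGroup.invRev c)) : Subgroup (FreeGroup (C ⊕ X)) where
  carrier := {x | ∃ ps : List (List ((C ⊕ X) × Bool) × ((I × Bool) ⊕ List (C × Bool))),
    (∀ u c, (u, Sum.inr c) ∈ ps → ok c) ∧ FreeGroup.mk (rhs r ps) = x}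
  one_mem' := ⟨[], by simp, by simp [rhs, ← FreeGroup.one_eq_mk]⟩
  mul_mem' := by
    rintro _ _ ⟨ps, hps, rfl⟩ ⟨qs, hqs, rfl⟩
    refine ⟨ps ++ qs, fun u c h => ?_, by simp [rhs, ← FreeGroup.mul_mk]⟩
    rcases List.mem_append.mp h with h | h
    · exact hps u c h
    · exact hqs u c h
  inv_mem' := by
    rintro _ ⟨ps, hps, rfl⟩
    induction ps with
    | nil => exact ⟨[], by simp, by simp [rhs, ← FreeGroup.one_eq_mk]⟩
    | cons p ps ih =>
      obtain ⟨qs, hqs, hq⟩ := ih fun u c h => hps u c (List.mem_cons_of_mem _ h)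
      refine ⟨qs ++ [(p.1, Sum.map (fun i => (i.1, !i.2)) FreeGroup.invRev p.2)], ?_, ?_⟩
      · intro u c h
        rcases List.mem_append.mp h with h | h
        · exact hqs u c h
        · rcases p with ⟨u', i | c'⟩
          · simp at h
          · simp only [List.mem_singleton, Sum.map_inr, Prod.mk.injEq, Sum.inr.injEq] at h
            obtain ⟨rfl, rfl⟩ := h
            exact hok _ (hps u c' List.mem_cons_self)
      · have hb : body r (Sum.map (fun i => (i.1, !i.2)) FreeGroup.invRev p.2) =
            FreeGroup.invRev (body r p.2) := by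
          rcases p with ⟨u', ⟨i, b⟩ | c'⟩
          · cases b <;> simp [body, FreeGroup.invRev_invRev]
          · simp [body, emb, FreeGroup.invRev, List.map_reverse, Function.comp_def]
        simp only [rhs, List.flatMap_append, List.flatMap_cons, List.flatMap_nil,
          List.append_nil] at hq ⊢
        simp only [← FreeGroup.mul_mk, mul_inv_rev, hq, hb, ← FreeGroup.inv_mk, inv_inv,
          mul_assoc]

lemma pieceSub_normal {C X I : Type*} (r : I → List ((C ⊕ X) × Bool))
    (ok : List (C × Bool) → Prop) (hok : ∀ c, ok c → ok (FreeGroup.invRev c)) :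
    (pieceSub r ok hok).Normal := by
  constructor
  rintro _ ⟨ps, hps, rfl⟩ g
  obtain ⟨l, rfl⟩ : ∃ l, FreeGroup.mk l = g := ⟨_, Quot.out_eq g⟩
  refine ⟨ps.map fun p => (l ++ p.1, p.2), ?_, ?_⟩
  · intro u c h
    obtain ⟨p, hp, he⟩ := List.mem_map.mp h
    obtain ⟨-, he2⟩ := Prod.mk.injEq .. |>.mp he
    exact hps p.1 c (by rw [← he2]; exact hp)
  · clear hps
    induction ps with
    | nil => simp [rhs, ← FreeGroup.one_eq_mk, ← FreeGroup.mul_mk, ← FreeGroup.inv_mk]
    | cons p ps ih =>
      simp only [rhs, List.map_cons, List.flatMap_cons] at ih ⊢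
      simp only [← FreeGroup.mul_mk, ← FreeGroup.inv_mk, mul_inv_rev] at ih ⊢
      rw [ih]
      group

lemma walk_punit {C : Type*} (l : List (C × Bool)) :
    Walk (fun _ : C => PUnit.unit.{u + 1}) (fun _ => PUnit.unit) PUnit.unit l PUnit.unit := by
  induction l with
  | nil => exact Walk.nil _
  | cons a l ih =>
    obtain ⟨c, b⟩ := a
    cases b
    · exact Walk.bwd (src := fun _ : C => PUnit.unit.{u + 1}) c ih
    · exact Walk.fwd (src := fun _ : C => PUnit.unit.{u + 1}) c ih

/-- Solvability passes from the kernel to the group over an indicable quotient. -/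
theorem systemsSolvable_of_ker {Q : Type v} [Group Q] (π : G →* Q) (hk : Regular k)
    (hQ : Indicable k Q) (hN : SystemsSolvable k π.ker) : SystemsSolvable k G := by
  intro m n w hw
  let K : Subgroup (Monoid.Coprod G (FreeGroup (Fin n))) := Subgroup.normalClosure (Set.range w)
  by_cases hinj : Function.Injective ((QuotientGroup.mk' K).comp Monoid.Coprod.inl)
  · refine ⟨_ ⧸ K, inferInstance, (QuotientGroup.mk' K).comp Monoid.Coprod.inl,
      fun x => QuotientGroup.mk' K (Monoid.Coprod.inr (FreeGroup.of x)), hinj, fun i => ?_⟩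
    have : Monoid.Coprod.lift ((QuotientGroup.mk' K).comp Monoid.Coprod.inl)
        (FreeGroup.lift fun x => QuotientGroup.mk' K (Monoid.Coprod.inr (FreeGroup.of x))) =
        QuotientGroup.mk' K := by
      apply Monoid.Coprod.hom_ext
      · ext; simp
      · ext; simp
    rw [this]
    exact (QuotientGroup.eq_one_iff _).mpr (Subgroup.subset_normalClosure ⟨i, rfl⟩)
  exfalso
  obtain ⟨g, hg, hg1⟩ : ∃ g, Monoid.Coprod.inl g ∈ K ∧ g ≠ 1 := by
    rw [injective_iff_map_eq_one] at hinj
    push Not at hinj
    obtain ⟨g, h1, h2⟩ := hinj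
    exact ⟨g, (QuotientGroup.eq_one_iff _).mp h1, h2⟩
  let S := G ⊕ ULift.{u} (Fin n)
  let p : FreeGroup S →* Monoid.Coprod G (FreeGroup (Fin n)) :=
    FreeGroup.lift (Sum.elim Monoid.Coprod.inl fun x => Monoid.Coprod.inr (FreeGroup.of x.down))
  have hsurj : Function.Surjective p := by
    rw [← MonoidHom.range_eq_top, eq_top_iff, ← Monoid.Coprod.range_inl_sup_range_inr, sup_le_iff]
    constructor
    · rintro _ ⟨a, rfl⟩
      exact ⟨FreeGroup.of (Sum.inl a), by simp [p]⟩
    · rw [MonoidHom.range_eq_map, ← FreeGroup.closure_range_of, MonoidHom.map_closure,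
        Subgroup.closure_le]
      rintro _ ⟨_, ⟨x, rfl⟩, rfl⟩
      exact ⟨FreeGroup.of (Sum.inr ⟨x⟩), by simp [p]⟩
  choose y hy using fun i : ULift.{u} (Fin m) => hsurj (w i.down)
  let r : ULift.{u} (Fin m) → List (S × Bool) := fun i => (y i).out
  have hr : ∀ i, p (FreeGroup.mk (r i)) = w i.down := fun i => by
    rw [show FreeGroup.mk (r i) = y i from Quot.out_eq _, hy]
  let L : (Fin n → k) →ₗ[k] (ULift.{u} (Fin n) →₀ k) :=
    (Finsupp.linearEquivFunOnFinite k k _).symm.toLinearMap ∘ₗ
      LinearMap.funLeft k k ULift.down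
  have hexpo : ∀ l : List (S × Bool),
      expo k l = L fun j => (((expVec (p (FreeGroup.mk l))).toAdd j : ℤ) : k) := by
    intro l
    ext x
    simp only [L, LinearMap.comp_apply, LinearEquiv.coe_coe, LinearMap.funLeft_apply,
      Finsupp.linearEquivFunOnFinite_symm_apply]
    induction l with
    | nil =>
      have h0 : FreeGroup.mk ([] : List (S × Bool)) = 1 := rfl
      simp [expo, deg, h0]
    | cons a l ih =>
      obtain ⟨s, b⟩ := a
      have e : FreeGroup.mk ((s, b) :: l) =
          cond b (FreeGroup.of s) (FreeGroup.of s)⁻¹ * FreeGroup.mk l := by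
        cases b <;> rfl
      rw [e, map_mul, map_mul, toAdd_mul, Pi.add_apply, Int.cast_add, ← ih]
      simp only [expo, deg, Finsupp.add_apply]
      congr 1
      rcases s with c | z
      · cases b <;> simp [p, expVec]
      · cases b <;>
          simp [p, expVec, Pi.single_apply, Finsupp.single_apply, ← ULift.down_inj,
            apply_ite (fun t : ℤ => (t : k)), eq_comm]
  have hind : LinearIndependent k fun i => expo k (r i) := by
    have hker : LinearMap.ker L = ⊥ := by
      rw [LinearMap.ker_eq_bot]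
      intro a b hab
      funext j
      exact congrFun
        ((Finsupp.linearEquivFunOnFinite k k (ULift.{u} (Fin n))).symm.injective hab) ⟨j⟩
    have := (hw.map' L hker).comp ULift.down ULift.down_injective
    simpa [Function.comp_def, hexpo, hr] using! this
  let ok : List (G × Bool) → Prop := fun c => val (id : G → G) c = 1
  have hok : ∀ c, ok c → ok (FreeGroup.invRev c) := by
    intro c hc
    simp only [ok, val, ← FreeGroup.inv_mk, map_inv] at hc ⊢
    rw [hc, inv_one]
  let P := pieceSub r ok hok
  have : P.Normal := pieceSub_normal r ok hok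
  let gen : G → FreeGroup S ⧸ P := fun a => QuotientGroup.mk' P (FreeGroup.of (Sum.inl a))
  have hmul : ∀ a b, gen (a * b) = gen a * gen b := by
    intro a b
    rw [← mul_inv_eq_one]
    change QuotientGroup.mk' P _ * (QuotientGroup.mk' P _ * QuotientGroup.mk' P _)⁻¹ = 1
    rw [← map_mul, ← map_inv, ← map_mul, QuotientGroup.mk'_apply, QuotientGroup.eq_one_iff]
    refine ⟨[([], Sum.inr [(a * b, true), (b, false), (a, false)])], ?_, ?_⟩
    · intro u c h
      simp only [List.mem_singleton, Prod.mk.injEq, Sum.inr.injEq] at h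
      obtain ⟨-, rfl⟩ := h
      simp [ok, val, FreeGroup.lift_mk]
    · simp only [rhs, body, emb, List.flatMap_cons, List.flatMap_nil, List.nil_append,
        List.append_nil, FreeGroup.invRev_empty, List.map_cons, List.map_nil]
      rw [mul_inv_rev]
      rfl
  let q : Monoid.Coprod G (FreeGroup (Fin n)) →* FreeGroup S ⧸ P :=
    Monoid.Coprod.lift (MonoidHom.mk' gen hmul)
      (FreeGroup.lift fun x => QuotientGroup.mk' P (FreeGroup.of (Sum.inr ⟨x⟩)))
  have hq : q.comp p = QuotientGroup.mk' P := by
    apply FreeGroup.ext_hom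
    rintro (a | ⟨x⟩) <;> simp [q, p, gen]
  have hK : K ≤ q.ker := by
    refine Subgroup.normalClosure_le_normal ?_
    rintro _ ⟨i, rfl⟩
    rw [SetLike.mem_coe, MonoidHom.mem_ker, ← hr ⟨i⟩, ← MonoidHom.comp_apply, hq]
    refine (QuotientGroup.eq_one_iff _).mpr ⟨[([], Sum.inl (⟨i⟩, true))], by simp, ?_⟩
    simp [rhs, body]
  have hgP : FreeGroup.of (Sum.inl g : S) ∈ P := by
    have := hK hg
    rw [MonoidHom.mem_ker] at this
    simpa [q, gen, QuotientGroup.eq_one_iff] using this
  obtain ⟨ps, hps, hid⟩ := hgP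
  refine Wit.none π hk hQ hN
    { C := G, X := ULift.{u} (Fin n), Vx := PUnit, I := ULift.{u} (Fin m)
      src := fun _ => PUnit.unit, tgt := fun _ => PUnit.unit, lab := id
      r := r, indep := hind, base := PUnit.unit, T := [(g, true)]
      hT := walk_punit _, hTv := by simpa [val, FreeGroup.lift_mk] using hg1
      pieces := ps, hrel := fun u c h => ⟨PUnit.unit, walk_punit _, hps u c h⟩
      hid := by rw [hid]; rfl }

end Vale.Agent.P174
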