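import Vale.Agent.P174.Wit

/-!
The covering of a witness along weights in the base field.
-/

open scoped Classical

namespace Vale.Agent.P174

open FreeGroup

universe u

variable {k : Type} [Field k]

/-- Lift of a word in the sum alphabet. -/
def liftS {C X V : Type*} [AddCommGroup V] (ψ : C ⊕ X → V) (l : List ((C ⊕ X) × Bool)) (v : V) :
    List (((C × V) ⊕ (X × V)) × Bool) :=
  (liftW ψ l v).map fun a => (Equiv.sumProdDistrib C X V a.1, a.2)

section lifts

variable {C X V : Type*} [AddCommGroup V]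

lemma liftS_append (ψ : C ⊕ X → V) (l₁ l₂ : List ((C ⊕ X) × Bool)) (v : V) :
    liftS ψ (l₁ ++ l₂) v = liftS ψ l₁ v ++ liftS ψ l₂ (v + deg ψ l₁) := by
  simp [liftS, liftW_append]

lemma invRev_map {S T : Type*} (g : S → T) (l : List (S × Bool)) :
    invRev (l.map fun a => (g a.1, a.2)) = (invRev l).map fun a => (g a.1, a.2) := by
  simp [invRev, List.map_reverse, List.map_map, Function.comp_def]

lemma liftS_invRev (ψ : C ⊕ X → V) (l : List ((C ⊕ X) × Bool)) (v : V) :
    liftS ψ (invRev l) (v + deg ψ l) = invRev (liftS ψ l v) := by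
  rw [liftS, liftW_invRev, liftS, invRev_map]

lemma liftS_congr (ψ : C ⊕ X → V) {l₁ l₂ : List ((C ⊕ X) × Bool)}
    (h : FreeGroup.mk l₁ = FreeGroup.mk l₂) (v : V) :
    FreeGroup.mk (liftS ψ l₁ v) = FreeGroup.mk (liftS ψ l₂ v) :=
  congrArg (FreeGroup.map (Equiv.sumProdDistrib C X V)) (liftW_congr ψ h v)

lemma deg_emb (ψ : C ⊕ X → V) (l : List (C × Bool)) :
    deg ψ (emb l) = deg (fun c => ψ (Sum.inl c)) l :=
  deg_map ψ Sum.inl l

lemma liftS_emb (ψ : C ⊕ X → V) (l : List (C × Bool)) (v : V) :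
    liftS ψ (emb l) v = emb (liftW (fun c => ψ (Sum.inl c)) l v) := by
  induction l generalizing v with
  | nil => simp [liftS, emb, liftW]
  | cons a l ih =>
    obtain ⟨c, b⟩ := a
    cases b
    · have := ih (v - ψ (Sum.inl c))
      simp only [liftS, emb] at this
      simp [liftS, emb, liftW, this]
    · have := ih (v + ψ (Sum.inl c))
      simp only [liftS, emb] at this
      simp [liftS, emb, liftW, this]

lemma liftS_proj (ψ : C ⊕ X → V) (l : List ((C ⊕ X) × Bool)) (v : V) :
    (liftS ψ l v).map (fun a => (Sum.map Prod.fst Prod.fst a.1, a.2)) = l := by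
  conv_rhs => rw [← liftW_fst ψ l v]
  rw [liftS, List.map_map]
  apply List.map_congr_left
  rintro ⟨⟨s, w⟩, b⟩ _
  cases s <;> simp

/-- Lift of a piece. -/
def liftPiece {I : Type*} (ψ : C ⊕ X → V)
    (p : List ((C ⊕ X) × Bool) × ((I × Bool) ⊕ List (C × Bool))) :
    List (((C × V) ⊕ (X × V)) × Bool) × (((I × V) × Bool) ⊕ List ((C × V) × Bool)) :=
  (liftS ψ p.1 0,
    Sum.map (fun i => ((i.1, deg ψ p.1), i.2))
      (fun c => liftW (fun c => ψ (Sum.inl c)) c (deg ψ p.1)) p.2)

lemma liftS_rhs {I : Type*} (ψ : C ⊕ X → V) (r : I → List ((C ⊕ X) × Bool))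
    (hr : ∀ i, deg ψ (r i) = 0)
    (ps : List (List ((C ⊕ X) × Bool) × ((I × Bool) ⊕ List (C × Bool))))
    (hps : ∀ u c, (u, Sum.inr c) ∈ ps → deg (fun c => ψ (Sum.inl c)) c = 0) :
    deg ψ (rhs r ps) = 0 ∧
      liftS ψ (rhs r ps) 0 =
        rhs (fun iv : I × V => liftS ψ (r iv.1) iv.2) (ps.map (liftPiece ψ)) := by
  induction ps with
  | nil => simp [rhs, deg, liftS, liftW]
  | cons p ps ih =>
    obtain ⟨ih1, ih2⟩ := ih fun u c h => hps u c (List.mem_cons_of_mem _ h)
    have hb : deg ψ (body r p.2) = 0 := by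
      rcases p with ⟨u, (⟨i, b⟩ | c)⟩
      · cases b <;> simp [body, deg_invRev, hr]
      · simp only [body, deg_emb]
        exact hps u c List.mem_cons_self
    have hd : deg ψ (p.1 ++ body r p.2 ++ invRev p.1) = 0 := by
      simp [deg_append, deg_invRev, hb]
    have hbody : liftS ψ (body r p.2) (deg ψ p.1) =
        body (fun iv : I × V => liftS ψ (r iv.1) iv.2) (liftPiece ψ p).2 := by
      rcases p with ⟨u, (⟨i, b⟩ | c)⟩
      · cases b
        · have := liftS_invRev ψ (r i) (deg ψ u)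
          rw [hr i, add_zero] at this
          simpa [liftPiece, body] using this
        · simp [liftPiece, body]
      · simp [liftPiece, body, liftS_emb]
    have e : rhs r (p :: ps) = (p.1 ++ body r p.2 ++ invRev p.1) ++ rhs r ps := by
      simp [rhs]
    rw [e, deg_append, hd, ih1, add_zero, liftS_append, hd, add_zero, ih2]
    refine ⟨rfl, ?_⟩
    have hi := liftS_invRev ψ p.1 0
    rw [zero_add] at hi
    rw [liftS_append, liftS_append, deg_append, hb, add_zero, zero_add, hbody, hi]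
    simp [rhs, liftPiece]

end lifts

lemma expo_lift_indep (hk : Regular k) {C X I : Type*} (ψ : C ⊕ X → k)
    (r : I → List ((C ⊕ X) × Bool)) (hind : LinearIndependent k fun i => expo k (r i)) :
    LinearIndependent k fun iv : I × k => expo k (liftS ψ (r iv.1) iv.2) := by
  let R := AddMonoidAlgebra k k
  let Φ : ((X × k) →₀ k) →ₗ[k] (X →₀ R) :=
    Finsupp.linearCombination k fun p => Finsupp.single p.1 (AddMonoidAlgebra.single p.2 1)
  let g : (C ⊕ X) × k → X →₀ R :=
    fun p => Sum.elim (fun _ => 0)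
      (fun x => Finsupp.single x (AddMonoidAlgebra.single p.2 1)) p.1
  let E : List ((C ⊕ X) × Bool) → k → X →₀ R := fun l v => deg g (liftW ψ l v)
  have hΦ : ∀ l v, Φ (expo k (liftS ψ l v)) = E l v := by
    intro l v
    rw [expo, liftS, deg_map]
    change Φ.toAddMonoidHom _ = _
    rw [deg_hom]
    apply deg_eq_of_eq
    rintro ⟨⟨s, w⟩, b⟩ _
    cases s <;> simp [Φ, g]
  have hshift : ∀ l v, E l v = (AddMonoidAlgebra.single v 1 : R) • E l 0 := by
    intro l v
    have h := liftW_shift ψ l v 0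
    rw [add_zero] at h
    simp only [E]
    rw [h, deg_map g (fun p : (C ⊕ X) × k => (p.1, v + p.2))]
    change _ = DistribSMul.toAddMonoidHom (X →₀ R) (AddMonoidAlgebra.single v 1 : R) _
    rw [deg_hom]
    apply deg_eq_of_eq
    rintro ⟨⟨s, w⟩, b⟩ _
    cases s <;> simp [g, AddMonoidAlgebra.single_mul_single]
  have haug : ∀ i, (E (r i) 0).mapRange (aug k) (map_zero _) = expo k (r i) := by
    intro i
    conv_rhs => rw [expo, ← liftW_fst ψ (r i) 0]
    rw [deg_map (Sum.elim 0 fun x => Finsupp.single x (1 : k)) (fun p : (C ⊕ X) × k => p.1)]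
    change Finsupp.mapRange.addMonoidHom (aug k).toAddMonoidHom _ = _
    rw [deg_hom]
    apply deg_eq_of_eq
    rintro ⟨⟨s, w⟩, b⟩ _
    cases s <;> simp [g, aug_single]
  have hP : LinearIndependent R fun i => E (r i) 0 := by
    refine linearIndependent_of_retraction (aug k) hk _ ?_
    simpa only [haug] using hind
  have hB : LinearIndependent k fun v : k => (AddMonoidAlgebra.single v 1 : R) := by
    apply LinearIndependent.of_comp (AddMonoidAlgebra.coeffLinearEquiv k).toLinearMap
    simpa [Function.comp_def] using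
      (Finsupp.linearIndependent_single_one k k)
  have h2 := ((linearIndependent_smul hB hP).comp Prod.swap Prod.swap_injective)
  apply LinearIndependent.of_comp Φ
  convert h2 using 1
  funext iv
  simp [hΦ, ← hshift]

namespace Wit

variable {G : Type u} [Group G]

/-- The covering witness. -/
noncomputable def cover (W : Wit k G) (hk : Regular k) (ψ : W.C ⊕ W.X → k)
    (hr : ∀ i, deg ψ (W.r i) = 0)
    (hrel : ∀ u c, (u, Sum.inr c) ∈ W.pieces → deg (fun c => ψ (Sum.inl c)) c = 0) :
    Wit k G where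
  C := W.C × k
  X := W.X × k
  Vx := W.Vx × k
  I := W.I × k
  src c := (W.src c.1, c.2)
  tgt c := (W.tgt c.1, c.2 + ψ (Sum.inl c.1))
  lab c := W.lab c.1
  r iv := liftS ψ (W.r iv.1) iv.2
  indep := expo_lift_indep hk ψ W.r W.indep
  base := (W.base, 0)
  T := liftW (fun c => ψ (Sum.inl c)) W.T 0
  hT := by
    have h := W.hT.lift (fun c => ψ (Sum.inl c)) (0 : k)
    have hd : deg (fun c => ψ (Sum.inl c)) W.T = 0 := by
      rw [← deg_emb, deg_congr ψ W.hid, (liftS_rhs ψ W.r hr W.pieces hrel).1]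
    simpa [hd] using h
  hTv := by
    have : val (fun c : W.C × k => W.lab c.1) (liftW (fun c => ψ (Sum.inl c)) W.T 0) =
        val W.lab W.T := by
      conv_rhs => rw [← liftW_fst (fun c => ψ (Sum.inl c)) W.T 0]
      simp [val, lift_mk, Function.comp_def]
    rw [this]
    exact W.hTv
  pieces := W.pieces.map (liftPiece ψ)
  hrel := by
    intro u c hm
    obtain ⟨⟨u₀, q⟩, hp, he⟩ := List.mem_map.mp hm
    rcases q with i | c₀
    · simp [liftPiece] at he
    · simp only [liftPiece, Sum.map_inr, Prod.mk.injEq, Sum.inr.injEq] at he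
      obtain ⟨-, rfl⟩ := he
      obtain ⟨z, hz, hv⟩ := W.hrel u₀ c₀ hp
      refine ⟨(z, deg ψ u₀), ?_, ?_⟩
      · have h := hz.lift (fun c => ψ (Sum.inl c)) (deg ψ u₀)
        simpa [hrel u₀ c₀ hp] using h
      · rw [← hv]
        conv_rhs => rw [← liftW_fst (fun c => ψ (Sum.inl c)) c₀ (deg ψ u₀)]
        simp [val, lift_mk, Function.comp_def]
  hid := by
    rw [← liftS_emb, ← (liftS_rhs ψ W.r hr W.pieces hrel).2]
    exact liftS_congr ψ W.hid 0

lemma cover_occ (W : Wit k G) (hk : Regular k) (ψ : W.C ⊕ W.X → k)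
    (hr : ∀ i, deg ψ (W.r i) = 0)
    (hrel : ∀ u c, (u, Sum.inr c) ∈ W.pieces → deg (fun c => ψ (Sum.inl c)) c = 0) :
    (W.cover hk ψ hr hrel).occ = liftS ψ (emb W.T) 0 ++ liftS ψ (rhs W.r W.pieces) 0 := by
  rw [liftS_emb, (liftS_rhs ψ W.r hr W.pieces hrel).2]
  rfl

end Wit

end Vale.Agent.P174
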