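import Mathlib

/-!
Definitions for systems of equations over groups.
-/

namespace Vale.Agent.P174

/-- `n`-tuple of exponent sums of the unknowns in an element of `G * F_n`. -/
def expVec {G : Type*} [Group G] {n : ℕ} :
    Monoid.Coprod G (FreeGroup (Fin n)) →* Multiplicative (Fin n → ℤ) :=
  Monoid.Coprod.lift 1 (FreeGroup.lift fun x => Multiplicative.ofAdd (Pi.single x 1))

/-- Every finite system over `G` whose exponent-sum matrix has independent rows over `k`
is solvable in a group containing `G`. -/
def SystemsSolvable.{u} (k : Type) [Field k] (G : Type u) [Group G] : Prop :=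
  ∀ (m n : ℕ) (w : Fin m → Monoid.Coprod G (FreeGroup (Fin n))),
    LinearIndependent k (fun i j => (((expVec (w i)).toAdd j : ℤ) : k)) →
    ∃ (H : Type u) (_ : Group H) (f : G →* H) (h : Fin n → H),
      Function.Injective f ∧ ∀ i, Monoid.Coprod.lift f (FreeGroup.lift h) (w i) = 1

end Vale.Agent.P174
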