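import Vale.Agent.P174.Cover

/-!
The induction: either every used label dies in the quotient after a gauge, or a covering
strictly increases the measure.
-/

open scoped Classical

namespace Vale.Agent.P174


universe u v

/-- Every nontrivial finitely generated subgroup maps nontrivially to the additive group of `k`. -/
def Indicable (k : Type) [Field k] (Q : Type*) [Group Q] : Prop :=
  ∀ L : Subgroup Q, L.FG → L ≠ ⊥ → ∃ φ : L →* Multiplicative k, φ ≠ 1

namespace Wit

variable {k : Type} [Field k] {G : Type u} [Group G]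

/-- Values of walks through used edges. -/
inductive Reach (W : Wit k G) : W.Vx → W.Vx → G → Prop
  | refl (x : W.Vx) : Reach W x x 1
  | fwd {x : W.Vx} {g : G} (c : W.C) (hc : c ∈ W.Cu) :
      Reach W x (W.src c) g → Reach W x (W.tgt c) (g * W.lab c)
  | bwd {x : W.Vx} {g : G} (c : W.C) (hc : c ∈ W.Cu) :
      Reach W x (W.tgt c) g → Reach W x (W.src c) (g * (W.lab c)⁻¹)

lemma Reach.trans {W : Wit k G} {x y z : W.Vx} {g h : G} (h1 : W.Reach x y g)
    (h2 : W.Reach y z h) : W.Reach x z (g * h) := by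
  induction h2 with
  | refl => simpa using h1
  | fwd c hc _ ih => rw [← mul_assoc]; exact Reach.fwd c hc ih
  | bwd c hc _ ih => rw [← mul_assoc]; exact Reach.bwd c hc ih

lemma Reach.symm {W : Wit k G} {x y : W.Vx} {g : G} (h1 : W.Reach x y g) :
    W.Reach y x g⁻¹ := by
  induction h1 with
  | refl => simpa using Reach.refl x
  | fwd c hc _ ih =>
    rw [mul_inv_rev]
    have := Reach.bwd c hc (Reach.refl (W.tgt c))
    rw [one_mul] at this
    exact this.trans ih
  | bwd c hc _ ih =>
    rw [mul_inv_rev, inv_inv]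
    have := Reach.fwd c hc (Reach.refl (W.src c))
    rw [one_mul] at this
    exact this.trans ih

/-- Connectedness through used edges. -/
def conn (W : Wit k G) : Setoid W.Vx where
  r x y := ∃ g, W.Reach x y g
  iseqv := ⟨fun x => ⟨1, Reach.refl x⟩, fun ⟨g, h⟩ => ⟨g⁻¹, h.symm⟩,
    fun ⟨g, h⟩ ⟨g', h'⟩ => ⟨g * g', h.trans h'⟩⟩

/-- The root of a component. -/
noncomputable def root (W : Wit k G) (x : W.Vx) : W.Vx :=
  (Quotient.mk W.conn x).out

lemma root_reach (W : Wit k G) (x : W.Vx) : ∃ g, W.Reach (W.root x) x g :=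
  Quotient.exact (s := W.conn) (Quotient.out_eq _)

lemma root_root (W : Wit k G) {x y : W.Vx} {g : G} (h : W.Reach x y g) : W.root x = W.root y :=
  congrArg Quotient.out (Quotient.sound (s := W.conn) ⟨g, h⟩)

lemma root_idem (W : Wit k G) (x : W.Vx) : W.root (W.root x) = W.root x := by
  obtain ⟨g, h⟩ := W.root_reach x
  exact W.root_root h

/-- The normalising gauge: the value of a chosen walk from the root. -/
noncomputable def tree (W : Wit k G) (x : W.Vx) : G := Classical.choose (W.root_reach x)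

lemma tree_spec (W : Wit k G) (x : W.Vx) : W.Reach (W.root x) x (W.tree x) :=
  Classical.choose_spec (W.root_reach x)

variable {Q : Type v} [Group Q] (π : G →* Q)

/-- The gauged labels. -/
noncomputable def glab (W : Wit k G) (c : W.C) : G :=
  W.tree (W.src c) * W.lab c * (W.tree (W.tgt c))⁻¹

/-- The subgroup generated by the used gauged labels in the quotient. -/
noncomputable def labSub (W : Wit k G) : Subgroup Q :=
  Subgroup.closure ↑(W.Cu.image fun c => π (W.glab c))

lemma lab_mem (W : Wit k G) {c : W.C} (hc : c ∈ W.Cu) :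
    π (W.glab c) ∈ W.labSub π :=
  Subgroup.subset_closure (Finset.mem_coe.mpr (Finset.mem_image_of_mem _ hc))

/-- The hom of the free group on edges with values in the subgroup of used labels. -/
noncomputable def edgeVal (W : Wit k G) (c : W.C) : W.labSub π :=
  if h : c ∈ W.Cu then ⟨π (W.glab c), W.lab_mem π h⟩ else 1

/-- The weight of a coefficient edge. -/
noncomputable def wt (W : Wit k G) (φ : W.labSub π →* Multiplicative k) (c : W.C) : k :=
  (φ (W.edgeVal π c)).toAdd

lemma reach_potential (W : Wit k G) (φ : W.labSub π →* Multiplicative k) (p : W.Vx → k)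
    (hp : ∀ c ∈ W.Cu, W.wt π φ c = p (W.tgt c) - p (W.src c)) {x y : W.Vx} {g : G}
    (h : W.Reach x y g) :
    ∃ hm : π (W.tree x * g * (W.tree y)⁻¹) ∈ W.labSub π,
      (φ ⟨_, hm⟩).toAdd = p y - p x := by
  induction h with
  | refl =>
    refine ⟨by simp, ?_⟩
    have : (⟨π (W.tree x * 1 * (W.tree x)⁻¹), by simp⟩ : W.labSub π) = 1 := by
      ext; simp
    rw [this, _root_.map_one, toAdd_one, sub_self]
  | @fwd g c hc _ ih =>
    obtain ⟨hm, hv⟩ := ih
    have hl := W.lab_mem π hc
    have e : π (W.tree x * (g * W.lab c) * (W.tree (W.tgt c))⁻¹) =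
        π (W.tree x * g * (W.tree (W.src c))⁻¹) * π (W.glab c) := by
      rw [← map_mul]
      exact congrArg π (by simp [glab, mul_assoc])
    refine ⟨e ▸ mul_mem hm hl, ?_⟩
    have e2 : (⟨_, e ▸ mul_mem hm hl⟩ : W.labSub π) = ⟨_, hm⟩ * W.edgeVal π c := by
      apply Subtype.ext
      simp only [edgeVal, dif_pos hc, Subgroup.coe_mul]
      exact e
    rw [e2, map_mul, toAdd_mul, hv]
    change _ + W.wt π φ c = _
    rw [hp c hc]
    abel
  | @bwd g c hc _ ih =>
    obtain ⟨hm, hv⟩ := ih
    have hl := W.lab_mem π hc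
    have e : π (W.tree x * (g * (W.lab c)⁻¹) * (W.tree (W.src c))⁻¹) =
        π (W.tree x * g * (W.tree (W.tgt c))⁻¹) * (π (W.glab c))⁻¹ := by
      rw [← map_inv, ← map_mul]
      exact congrArg π (by simp [glab, mul_assoc])
    refine ⟨e ▸ mul_mem hm (inv_mem hl), ?_⟩
    have e2 : (⟨_, e ▸ mul_mem hm (inv_mem hl)⟩ : W.labSub π) =
        ⟨_, hm⟩ * (W.edgeVal π c)⁻¹ := by
      apply Subtype.ext
      simp only [edgeVal, dif_pos hc, Subgroup.coe_mul, Subgroup.coe_inv]
      exact e
    rw [e2, map_mul, map_inv, toAdd_mul, toAdd_inv, hv]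
    change _ + -W.wt π φ c = _
    rw [hp c hc]
    abel

lemma wt_not_potential (W : Wit k G) (φ : W.labSub π →* Multiplicative k) (p : W.Vx → k)
    (hp : ∀ c ∈ W.Cu, W.wt π φ c = p (W.tgt c) - p (W.src c)) : φ = 1 := by
  have key : ∀ x, p x - p (W.root x) = (if h : π (W.tree (W.root x)) ∈ W.labSub π
      then (φ ⟨_, h⟩).toAdd else 0) := by
    intro x
    obtain ⟨hm, hv⟩ := W.reach_potential π φ p hp (W.tree_spec x)
    simp only [mul_inv_cancel_right] at hm hv
    rw [dif_pos hm, hv]
  have hconst : ∀ c ∈ W.Cu, p (W.tgt c) = p (W.src c) := by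
    intro c hc
    have hr : W.root (W.src c) = W.root (W.tgt c) :=
      W.root_root (Reach.fwd c hc (Reach.refl _))
    have h1 := key (W.src c)
    have h2 := key (W.tgt c)
    rw [← hr, ← h1] at h2
    linear_combination h2
  apply MonoidHom.eq_of_eqOn_top
  have hgen : Set.EqOn φ (1 : W.labSub π →* Multiplicative k)
      (((↑) : W.labSub π → Q) ⁻¹' ↑(W.Cu.image fun c => π (W.glab c))) := by
    rintro ⟨x, hxm⟩ hx
    obtain ⟨c, hc, e⟩ : ∃ c ∈ W.Cu, π (W.glab c) = x :=
      Finset.mem_image.mp (Finset.mem_coe.mp hx)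
    subst e
    have := hp c hc
    rw [hconst c hc, sub_self, wt, edgeVal, dif_pos hc] at this
    simpa using this
  have := MonoidHom.eqOn_closure hgen
  unfold labSub at this
  rwa [Subgroup.closure_closure_coe_preimage] at this

lemma wt_loop (W : Wit k G) (φ : W.labSub π →* Multiplicative k) {z : W.Vx}
    {l : List (W.C × Bool)} (hl : ∀ a ∈ l, a.1 ∈ W.Cu) (hz : Walk W.src W.tgt z l z)
    (hv : val W.lab l = 1) : deg (W.wt π φ) l = 0 := by
  have h1 : Multiplicative.ofAdd (deg (W.wt π φ) l) =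
      φ (FreeGroup.lift (W.edgeVal π) (FreeGroup.mk l)) := by
    rw [deg_eq_lift, FreeGroup.lift_mk, FreeGroup.lift_mk, map_list_prod, List.map_map]
    congr 1
    apply List.map_congr_left
    rintro ⟨c, b⟩ _
    cases b <;> simp [wt]
  have h2 : ((FreeGroup.lift (W.edgeVal π) (FreeGroup.mk l) : W.labSub π) : Q) =
      π (val W.glab l) := by
    change _ = π (FreeGroup.lift W.glab (FreeGroup.mk l))
    rw [FreeGroup.lift_mk, FreeGroup.lift_mk, map_list_prod, Subgroup.val_list_prod, List.map_map, List.map_map]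
    congr 1
    apply List.map_congr_left
    rintro ⟨c, b⟩ hm
    have hc : c ∈ W.Cu := hl _ hm
    cases b <;> simp [edgeVal, hc]
  have h3 : val W.glab l = 1 := by
    change val (fun c => W.tree (W.src c) * W.lab c * (W.tree (W.tgt c))⁻¹) l = 1
    rw [hz.val_gauge W.lab W.tree, hv]
    simp
  rw [h3, _root_.map_one] at h2
  have : FreeGroup.lift (W.edgeVal π) (FreeGroup.mk l) = 1 := Subtype.ext h2
  rw [this, _root_.map_one] at h1
  exact Multiplicative.ofAdd.injective h1

lemma deg_sum_split {C X V : Type*} [AddCommGroup V] [Module k V] (a : C → V)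
    (f : (X →₀ k) →ₗ[k] V) (l : List ((C ⊕ X) × Bool)) :
    deg (Sum.elim a fun x => f (Finsupp.single x 1)) l =
      deg (Sum.elim a 0) l + f (expo k l) := by
  rw [expo]
  change _ = _ + f.toAddMonoidHom _
  rw [deg_hom, ← deg_add]
  apply deg_eq_of_eq
  rintro ⟨s, b⟩ _
  cases s <;> simp

lemma exists_weight (W : Wit k G) (φ : W.labSub π →* Multiplicative k) :
    ∃ ψ : W.C ⊕ W.X → k, (∀ c, ψ (Sum.inl c) = W.wt π φ c) ∧ ∀ i, deg ψ (W.r i) = 0 := by
  obtain ⟨f, hf⟩ := exists_linearMap W.indep fun i => -deg (Sum.elim (W.wt π φ) 0) (W.r i)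
  refine ⟨Sum.elim (W.wt π φ) fun x => f (Finsupp.single x 1), fun c => rfl, fun i => ?_⟩
  rw [deg_sum_split, hf, add_neg_cancel]

lemma step_up (W : Wit k G) (hk : Regular k) (φ : W.labSub π →* Multiplicative k) (hφ : φ ≠ 1) :
    ∃ W' : Wit k G, W'.occ.length = W.occ.length ∧ W.meas < W'.meas := by
  obtain ⟨ψ, hψc, hr⟩ := W.exists_weight π φ
  have hψf : (fun c => ψ (Sum.inl c)) = W.wt π φ := funext hψc
  have hrel : ∀ u c, (u, Sum.inr c) ∈ W.pieces → deg (fun c => ψ (Sum.inl c)) c = 0 := by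
    intro u c hu
    obtain ⟨z, hz, hv⟩ := W.hrel u c hu
    rw [hψf]
    exact W.wt_loop π φ (fun a ha => W.mem_occ_rel hu ha) hz hv
  refine ⟨W.cover hk ψ hr hrel, ?_, ?_⟩
  · have h : (liftS ψ (emb W.T) 0 ++ liftS ψ (rhs W.r W.pieces) 0).length = W.occ.length := by
      simp [occ, liftS, liftW_length]
    rw [cover_occ]
    exact h
  by_contra hlt
  have hproj : ((W.cover hk ψ hr hrel).occ).map
      (fun a => (Sum.map Prod.fst Prod.fst a.1, a.2)) = W.occ := by
    have h : (liftS ψ (emb W.T) 0 ++ liftS ψ (rhs W.r W.pieces) 0).map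
        (fun a => (Sum.map Prod.fst Prod.fst a.1, a.2)) = W.occ := by
      rw [List.map_append, liftS_proj, liftS_proj]; rfl
    rw [cover_occ]
    exact h
  obtain ⟨p, hp⟩ := exists_potential W.src W.tgt (fun c => ψ (Sum.inl c)) W.occ
    (W.cover hk ψ hr hrel).occ hproj (not_lt.mp hlt)
  refine hφ (W.wt_not_potential π φ p fun c hc => ?_)
  rw [hp c hc, ← hψc c]
  abel

lemma dichotomy (W : Wit k G) (hk : Regular k) (hQ : Indicable k Q) :
    (∀ c ∈ (W.gauge W.tree).Cu, π (W.glab c) = 1) ∨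
      ∃ W' : Wit k G, W'.occ.length = W.occ.length ∧ W.meas < W'.meas := by
  by_cases hbot : W.labSub π = ⊥
  · left
    intro c hc
    have := W.lab_mem π (c := c) hc
    rwa [hbot, Subgroup.mem_bot] at this
  · right
    obtain ⟨φ, hφ⟩ := hQ _ ⟨_, rfl⟩ hbot
    exact W.step_up π hk φ hφ

end Wit

end Vale.Agent.P174
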