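import Mathlib

/-!
Words over an alphabet, weighted by an additive group, and their lifts to the
covering alphabet `S × V`.
-/

namespace Vale.Agent.P174

open FreeGroup

variable {S : Type*} {V : Type*} [AddCommGroup V]

/-- Total weight of a word. -/
def deg (ψ : S → V) : List (S × Bool) → V
  | [] => 0
  | (s, b) :: l => (cond b (ψ s) (-ψ s)) + deg ψ l

/-- Lift of a word, starting at level `v`. -/
def liftW (ψ : S → V) : List (S × Bool) → V → List ((S × V) × Bool)
  | [], _ => []
  | (s, true) :: l, v => ((s, v), true) :: liftW ψ l (v + ψ s)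
  | (s, false) :: l, v => ((s, v - ψ s), false) :: liftW ψ l (v - ψ s)

lemma deg_append (ψ : S → V) (l₁ l₂ : List (S × Bool)) :
    deg ψ (l₁ ++ l₂) = deg ψ l₁ + deg ψ l₂ := by
  induction l₁ with
  | nil => simp [deg]
  | cons a l ih => obtain ⟨s, b⟩ := a; simp [deg, ih, add_assoc]

lemma deg_invRev (ψ : S → V) (l : List (S × Bool)) : deg ψ (invRev l) = -deg ψ l := by
  induction l with
  | nil => simp [deg, invRev]
  | cons a l ih =>
    obtain ⟨s, b⟩ := a
    rw [invRev_cons, deg_append, ih]
    cases b <;> simp [deg, invRev, add_comm]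

lemma deg_eq_lift (ψ : S → V) (l : List (S × Bool)) :
    Multiplicative.ofAdd (deg ψ l) =
      FreeGroup.lift (fun s => Multiplicative.ofAdd (ψ s)) (FreeGroup.mk l) := by
  induction l with
  | nil => simp [deg]
  | cons a l ih =>
    obtain ⟨s, b⟩ := a
    simp only [deg, lift_mk, List.map_cons, List.prod_cons] at ih ⊢
    cases b <;> simp [← ih, ofAdd_add, ofAdd_neg]

lemma deg_congr (ψ : S → V) {l₁ l₂ : List (S × Bool)}
    (h : FreeGroup.mk l₁ = FreeGroup.mk l₂) : deg ψ l₁ = deg ψ l₂ := by
  apply Multiplicative.ofAdd.injective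
  rw [deg_eq_lift, deg_eq_lift, h]

lemma deg_map {T : Type*} (ψ : S → V) (g : T → S) (l : List (T × Bool)) :
    deg ψ (l.map fun a => (g a.1, a.2)) = deg (fun t => ψ (g t)) l := by
  induction l with
  | nil => simp [deg]
  | cons a l ih => obtain ⟨s, b⟩ := a; simp [deg, ih]

lemma deg_eq_of_eq (ψ ψ' : S → V) (l : List (S × Bool)) (h : ∀ a ∈ l, ψ a.1 = ψ' a.1) :
    deg ψ l = deg ψ' l := by
  induction l with
  | nil => simp [deg]
  | cons a l ih =>
    obtain ⟨s, b⟩ := a
    simp only [List.mem_cons, forall_eq_or_imp] at h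
    simp [deg, h.1, ih h.2]

lemma deg_hom {W : Type*} [AddCommGroup W] (f : V →+ W) (ψ : S → V) (l : List (S × Bool)) :
    f (deg ψ l) = deg (fun s => f (ψ s)) l := by
  induction l with
  | nil => simp [deg]
  | cons a l ih => obtain ⟨s, b⟩ := a; cases b <;> simp [deg, ih, map_add]

lemma deg_add (ψ ψ' : S → V) (l : List (S × Bool)) :
    deg (fun s => ψ s + ψ' s) l = deg ψ l + deg ψ' l := by
  induction l with
  | nil => simp [deg]
  | cons a l ih => obtain ⟨s, b⟩ := a; cases b <;> simp [deg, ih] <;> abel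

lemma liftW_append (ψ : S → V) (l₁ l₂ : List (S × Bool)) (v : V) :
    liftW ψ (l₁ ++ l₂) v = liftW ψ l₁ v ++ liftW ψ l₂ (v + deg ψ l₁) := by
  induction l₁ generalizing v with
  | nil => simp [liftW, deg]
  | cons a l ih =>
    obtain ⟨s, b⟩ := a
    cases b <;> simp [liftW, deg, ih, add_assoc, sub_eq_add_neg]

lemma liftW_length (ψ : S → V) (l : List (S × Bool)) (v : V) :
    (liftW ψ l v).length = l.length := by
  induction l generalizing v with
  | nil => simp [liftW]
  | cons a l ih => obtain ⟨s, b⟩ := a; cases b <;> simp [liftW, ih]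

lemma liftW_fst (ψ : S → V) (l : List (S × Bool)) (v : V) :
    (liftW ψ l v).map (fun a => (a.1.1, a.2)) = l := by
  induction l generalizing v with
  | nil => simp [liftW]
  | cons a l ih => obtain ⟨s, b⟩ := a; cases b <;> simp [liftW, ih]

lemma liftW_shift (ψ : S → V) (l : List (S × Bool)) (v w : V) :
    liftW ψ l (v + w) = (liftW ψ l w).map (fun a => ((a.1.1, v + a.1.2), a.2)) := by
  induction l generalizing w with
  | nil => simp [liftW]
  | cons a l ih =>
    obtain ⟨s, b⟩ := a
    cases b
    · have : v + w - ψ s = v + (w - ψ s) := by abel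
      simp [liftW, this, ih]
    · simp [liftW, add_assoc, ih]

lemma liftW_invRev (ψ : S → V) (l : List (S × Bool)) (v : V) :
    liftW ψ (invRev l) (v + deg ψ l) = invRev (liftW ψ l v) := by
  induction l generalizing v with
  | nil => simp [liftW, invRev]
  | cons a l ih =>
    obtain ⟨s, b⟩ := a
    rw [invRev_cons, liftW_append, deg_invRev]
    cases b
    · have h1 : v + deg ψ ((s, false) :: l) = (v - ψ s) + deg ψ l := by simp [deg]; abel
      have h2 : v + deg ψ ((s, false) :: l) + -deg ψ l = v - ψ s := by simp [deg]; abel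
      rw [h2, h1, ih]
      simp [liftW, invRev]
    · have h1 : v + deg ψ ((s, true) :: l) = (v + ψ s) + deg ψ l := by simp [deg]; abel
      have h2 : v + deg ψ ((s, true) :: l) + -deg ψ l = v + ψ s := by simp [deg]; abel
      rw [h2, h1, ih]
      simp [liftW, invRev]

lemma liftW_step (ψ : S → V) {l₁ l₂ : List (S × Bool)} (h : FreeGroup.Red.Step l₁ l₂) (v : V) :
    FreeGroup.mk (liftW ψ l₁ v) = FreeGroup.mk (liftW ψ l₂ v) := by
  cases h with
  | @not L₁ L₂ s b =>
    rw [liftW_append, liftW_append]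
    cases b <;> simp only [Bool.not_false, Bool.not_true, liftW]
    · rw [show v + deg ψ L₁ - ψ s + ψ s = v + deg ψ L₁ by abel]
      exact Quot.sound FreeGroup.Red.Step.not
    · rw [show v + deg ψ L₁ + ψ s - ψ s = v + deg ψ L₁ by abel]
      exact Quot.sound FreeGroup.Red.Step.not

lemma liftW_congr (ψ : S → V) {l₁ l₂ : List (S × Bool)}
    (h : FreeGroup.mk l₁ = FreeGroup.mk l₂) (v : V) :
    FreeGroup.mk (liftW ψ l₁ v) = FreeGroup.mk (liftW ψ l₂ v) :=
  congrArg (Quot.lift (fun l => FreeGroup.mk (liftW ψ l v)) fun _ _ hs => liftW_step ψ hs v) h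

/-- Symbols of a word. -/
def symbols (l : List (S × Bool)) : List S := l.map Prod.fst

end Vale.Agent.P174
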