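import Vale.Agent.P174.Defs
import Vale.Agent.P174.Lift
import Vale.Agent.P174.Alg

/-!
Witnesses of unsolvability and the covering step.
-/

open scoped Classical

namespace Vale.Agent.P174

open FreeGroup

universe u

/-- A coefficient word inside the word alphabet. -/
def emb {C X : Type*} (l : List (C × Bool)) : List ((C ⊕ X) × Bool) :=
  l.map fun a => (Sum.inl a.1, a.2)

/-- Exponent sums of the unknowns. -/
noncomputable def expo (k : Type*) [Field k] {C X : Type*} (l : List ((C ⊕ X) × Bool)) :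
    X →₀ k :=
  deg (Sum.elim 0 fun x => Finsupp.single x 1) l

/-- Value of a coefficient word. -/
def val {C G : Type*} [Group G] (lab : C → G) (l : List (C × Bool)) : G :=
  FreeGroup.lift lab (FreeGroup.mk l)

lemma val_cons {C G : Type*} [Group G] (lab : C → G) (a : C × Bool) (l : List (C × Bool)) :
    val lab (a :: l) = cond a.2 (lab a.1) (lab a.1)⁻¹ * val lab l := by
  simp [val, lift_mk]

lemma val_nil {C G : Type*} [Group G] (lab : C → G) : val lab [] = 1 := by
  simp [val]

/-- Closed or open walks of coefficient edges. -/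
inductive Walk {C Vx : Type*} (src tgt : C → Vx) : Vx → List (C × Bool) → Vx → Prop
  | nil (x : Vx) : Walk src tgt x [] x
  | fwd (c : C) {l : List (C × Bool)} {z : Vx} :
      Walk src tgt (tgt c) l z → Walk src tgt (src c) ((c, true) :: l) z
  | bwd (c : C) {l : List (C × Bool)} {z : Vx} :
      Walk src tgt (src c) l z → Walk src tgt (tgt c) ((c, false) :: l) z

lemma Walk.val_gauge {C Vx G : Type*} [Group G] {src tgt : C → Vx} (lab : C → G) (d : Vx → G)
    {x z : Vx} {l : List (C × Bool)} (h : Walk src tgt x l z) :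
    val (fun c => d (src c) * lab c * (d (tgt c))⁻¹) l = d x * val lab l * (d z)⁻¹ := by
  induction h with
  | nil x => simp [val_nil]
  | fwd c _ ih => rw [val_cons, val_cons, ih]; simp [mul_assoc]
  | bwd c _ ih => rw [val_cons, val_cons, ih]; simp [mul_assoc]

lemma Walk.lift {C Vx V : Type*} [AddCommGroup V] {src tgt : C → Vx} (ψ : C → V)
    {x z : Vx} {l : List (C × Bool)} (h : Walk src tgt x l z) (v : V) :
    Walk (fun c : C × V => (src c.1, c.2)) (fun c : C × V => (tgt c.1, c.2 + ψ c.1))
      (x, v) (liftW ψ l v) (z, v + deg ψ l) := by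
  induction h generalizing v with
  | nil x => simpa [deg, liftW] using Walk.nil (x, v)
  | @fwd c l z _ ih =>
    have := Walk.fwd (src := fun c : C × V => (src c.1, c.2))
      (tgt := fun c : C × V => (tgt c.1, c.2 + ψ c.1)) (c, v) (ih (v + ψ c))
    simpa [deg, liftW, add_assoc] using this
  | @bwd c l z _ ih =>
    have := Walk.bwd (src := fun c : C × V => (src c.1, c.2))
      (tgt := fun c : C × V => (tgt c.1, c.2 + ψ c.1)) (c, v - ψ c) (ih (v - ψ c))
    simpa [deg, liftW, sub_eq_add_neg, add_assoc] using this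

/-- The word of a piece. -/
def body {C X I : Type*} (r : I → List ((C ⊕ X) × Bool)) :
    (I × Bool) ⊕ List (C × Bool) → List ((C ⊕ X) × Bool)
  | Sum.inl (i, true) => r i
  | Sum.inl (i, false) => invRev (r i)
  | Sum.inr c => emb c

/-- Product of conjugates of pieces. -/
def rhs {C X I : Type*} (r : I → List ((C ⊕ X) × Bool))
    (ps : List (List ((C ⊕ X) × Bool) × ((I × Bool) ⊕ List (C × Bool)))) :
    List ((C ⊕ X) × Bool) :=
  ps.flatMap fun p => p.1 ++ body r p.2 ++ invRev p.1

/-- A witness: a nontrivial coefficient loop lying in the normal closure of an independent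
family of equations and of trivial coefficient loops. -/
structure Wit (k : Type) [Field k] (G : Type u) [Group G] : Type (u + 1) where
  /-- coefficient edges -/
  C : Type u
  /-- unknowns -/
  X : Type u
  /-- vertices -/
  Vx : Type u
  /-- equations -/
  I : Type u
  /-- source -/
  src : C → Vx
  /-- target -/
  tgt : C → Vx
  /-- labels -/
  lab : C → G
  /-- equation words -/
  r : I → List ((C ⊕ X) × Bool)
  indep : LinearIndependent k fun i => expo k (r i)
  /-- base vertex -/
  base : Vx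
  /-- the loop -/
  T : List (C × Bool)
  hT : Walk src tgt base T base
  hTv : val lab T ≠ 1
  /-- the pieces -/
  pieces : List (List ((C ⊕ X) × Bool) × ((I × Bool) ⊕ List (C × Bool)))
  hrel : ∀ u c, (u, Sum.inr c) ∈ pieces → ∃ z, Walk src tgt z c z ∧ val lab c = 1
  hid : FreeGroup.mk (emb T) = FreeGroup.mk (rhs r pieces)

/-- Coefficient edges occurring in a word. -/
noncomputable def usedC {C X : Type*} (l : List ((C ⊕ X) × Bool)) : Finset C :=
  (l.filterMap fun a => a.1.getLeft?).toFinset

/-- Endpoints of the occurring coefficient edges. -/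
noncomputable def usedV {C X Vx : Type*} (src tgt : C → Vx) (l : List ((C ⊕ X) × Bool)) :
    Finset Vx :=
  (usedC l).image src ∪ (usedC l).image tgt

/-- Letters occurring in a word. -/
noncomputable def usedS {C X : Type*} (l : List ((C ⊕ X) × Bool)) : Finset (C ⊕ X) :=
  (l.map Prod.fst).toFinset

/-- Size of what a word uses. -/
noncomputable def used {C X Vx : Type*} (src tgt : C → Vx) (l : List ((C ⊕ X) × Bool)) : ℕ :=
  (usedS l).card + (usedV src tgt l).card

lemma mem_usedC {C X : Type*} (l : List ((C ⊕ X) × Bool)) (c : C) :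
    c ∈ usedC l ↔ ∃ b, (Sum.inl c, b) ∈ l := by
  simp only [usedC, List.mem_toFinset, List.mem_filterMap, Sum.getLeft?_eq_some_iff]
  constructor
  · rintro ⟨⟨s, b⟩, h, rfl⟩
    exact ⟨b, h⟩
  · rintro ⟨b, h⟩
    exact ⟨_, h, rfl⟩

lemma exists_potential {C X Vx V : Type*} [AddCommGroup V] (src tgt : C → Vx) (ψ : C → V)
    (o : List ((C ⊕ X) × Bool)) (o' : List (((C × V) ⊕ (X × V)) × Bool))
    (hproj : o'.map (fun a => (Sum.map Prod.fst Prod.fst a.1, a.2)) = o)
    (hle : used (fun c : C × V => (src c.1, c.2)) (fun c : C × V => (tgt c.1, c.2 + ψ c.1)) o' ≤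
      used src tgt o) :
    ∃ p : Vx → V, ∀ c ∈ usedC o, p (tgt c) = p (src c) + ψ c := by
  set src' := fun c : C × V => (src c.1, c.2)
  set tgt' := fun c : C × V => (tgt c.1, c.2 + ψ c.1)
  have hsyms : (usedS o').image (Sum.map Prod.fst Prod.fst) = usedS o := by
    subst hproj
    ext s
    simp [usedS]
  have hC : (usedC o').image Prod.fst = usedC o := by
    subst hproj
    ext c
    simp only [Finset.mem_image, mem_usedC, List.mem_map]
    constructor
    · rintro ⟨c', ⟨b, hb⟩, rfl⟩
      exact ⟨b, _, hb, rfl⟩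
    · rintro ⟨b, ⟨s, b'⟩, hm, he⟩
      rcases s with c' | x
      · simp only [Sum.map_inl, Prod.mk.injEq, Sum.inl.injEq] at he
        exact ⟨c', ⟨b', hm⟩, he.1⟩
      · simp at he
  have hV : (usedV src' tgt' o').image Prod.fst = usedV src tgt o := by
    ext y
    simp only [usedV, ← hC, Finset.mem_image, Finset.mem_union]
    constructor
    · rintro ⟨y', (⟨a, ha, rfl⟩ | ⟨a, ha, rfl⟩), rfl⟩
      · exact Or.inl ⟨a.1, ⟨a, ha, rfl⟩, rfl⟩
      · exact Or.inr ⟨a.1, ⟨a, ha, rfl⟩, rfl⟩
    · rintro (⟨_, ⟨a, ha, rfl⟩, rfl⟩ | ⟨_, ⟨a, ha, rfl⟩, rfl⟩)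
      · exact ⟨_, Or.inl ⟨a, ha, rfl⟩, rfl⟩
      · exact ⟨_, Or.inr ⟨a, ha, rfl⟩, rfl⟩
  have h1 : (usedS o).card ≤ (usedS o').card := hsyms ▸ Finset.card_image_le
  have h2 : (usedV src tgt o).card ≤ (usedV src' tgt' o').card := hV ▸ Finset.card_image_le
  simp only [used] at hle
  have h4 : ((usedV src' tgt' o').image Prod.fst).card = (usedV src' tgt' o').card := by
    rw [hV]; omega
  have hinj := Finset.card_image_iff.mp h4
  let p : Vx → V := fun y =>
    if h : ∃ v, (y, v) ∈ usedV src' tgt' o' then Classical.choose h else 0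
  have hp : ∀ y v, (y, v) ∈ usedV src' tgt' o' → p y = v := by
    intro y v hv
    have hex : ∃ v, (y, v) ∈ usedV src' tgt' o' := ⟨v, hv⟩
    simp only [p, dif_pos hex]
    exact congrArg Prod.snd (hinj (Classical.choose_spec hex) hv rfl)
  refine ⟨p, fun c hc => ?_⟩
  rw [← hC, Finset.mem_image] at hc
  obtain ⟨⟨c, v⟩, hm, rfl⟩ := hc
  have hs : (src c, v) ∈ usedV src' tgt' o' := by
    simp only [usedV, Finset.mem_union, Finset.mem_image]
    exact Or.inl ⟨_, hm, rfl⟩
  have ht : (tgt c, v + ψ c) ∈ usedV src' tgt' o' := by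
    simp only [usedV, Finset.mem_union, Finset.mem_image]
    exact Or.inr ⟨_, hm, rfl⟩
  rw [hp _ _ hs, hp _ _ ht]

namespace Wit

variable {k : Type} [Field k] {G : Type u} [Group G]

/-- All occurrences of letters. -/
def occ (W : Wit k G) : List ((W.C ⊕ W.X) × Bool) := emb W.T ++ rhs W.r W.pieces

/-- Used coefficient edges. -/
noncomputable def Cu (W : Wit k G) : Finset W.C := usedC W.occ

lemma mem_Cu (W : Wit k G) (c : W.C) : c ∈ W.Cu ↔ ∃ b, (Sum.inl c, b) ∈ W.occ :=
  mem_usedC _ _

/-- The measure that increases along covering steps. -/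
noncomputable def meas (W : Wit k G) : ℕ := used W.src W.tgt W.occ

lemma meas_le (W : Wit k G) : W.meas ≤ 3 * W.occ.length := by
  have h1 : (usedS W.occ).card ≤ W.occ.length := by
    simpa [usedS] using List.toFinset_card_le (W.occ.map Prod.fst)
  have h2 : W.Cu.card ≤ W.occ.length :=
    (List.toFinset_card_le _).trans (List.length_filterMap_le _ _)
  have h3 := Finset.card_union_le (W.Cu.image W.src) (W.Cu.image W.tgt)
  have h4 := Finset.card_image_le (s := W.Cu) (f := W.src)
  have h5 := Finset.card_image_le (s := W.Cu) (f := W.tgt)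
  simp only [meas, used, usedV]
  simp only [Cu] at h2 h3 h4 h5
  omega

/-- Change of labels by a gauge. -/
def gauge (W : Wit k G) (d : W.Vx → G) : Wit k G :=
  { W with
    lab := fun c => d (W.src c) * W.lab c * (d (W.tgt c))⁻¹
    hTv := by
      rw [W.hT.val_gauge W.lab d]
      intro h
      apply W.hTv
      rwa [conj_eq_one_iff] at h
    hrel := by
      intro u c hu
      obtain ⟨z, hz, hv⟩ := W.hrel u c hu
      exact ⟨z, hz, by rw [hz.val_gauge W.lab d, hv]; simp⟩ }

lemma mem_occ_T (W : Wit k G) {a : W.C × Bool} (h : a ∈ W.T) : a.1 ∈ W.Cu := by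
  rw [mem_Cu]
  exact ⟨a.2, List.mem_append_left _ (List.mem_map.mpr ⟨a, h, rfl⟩)⟩

lemma mem_occ_body (W : Wit k G) {p} (hp : p ∈ W.pieces) {a : (W.C ⊕ W.X) × Bool}
    (h : a ∈ body W.r p.2) : a ∈ W.occ := by
  refine List.mem_append_right _ (List.mem_flatMap.mpr ⟨p, hp, ?_⟩)
  simp [h]

lemma mem_occ_rel (W : Wit k G) {u c} (hp : (u, Sum.inr c) ∈ W.pieces) {a : W.C × Bool}
    (h : a ∈ c) : a.1 ∈ W.Cu := by
  rw [mem_Cu]
  exact ⟨a.2, W.mem_occ_body hp (List.mem_map.mpr ⟨a, h, rfl⟩)⟩

end Wit

end Vale.Agent.P174
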